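import Vale.Agent.H11.FreeBAP

open Vale.Agent.H11.CoarseInj Vale.Agent.H11.FreeBAP

namespace Vale.Agent.Results.P090.CoarseRetract

universe u v

/-- distinct points are at distance at least `s` -/
def Separated (s : ℝ) (M : Type*) [MetricSpace M] : Prop :=
  0 < s ∧ ∀ x y : M, x ≠ y → s ≤ dist x y

/-- `M` is a coarse Lipschitz retract of `N` -/
def CoarseLipRetract (L : ℝ) (M N : Type*) [MetricSpace M] [MetricSpace N] : Prop :=
  ∃ (i : M → N) (r : N → M), (∀ x y, dist (i x) (i y) ≤ L * dist x y + L) ∧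
    (∀ u v, dist (r u) (r v) ≤ L * dist u v + L) ∧ ∀ x, dist (r (i x)) x ≤ L

/-- Gromov hyperbolicity: four point condition -/
def Hyperbolic (δ : ℝ) (N : Type*) [MetricSpace N] : Prop :=
  ∀ w x y z : N, dist w x + dist y z ≤
    max (dist w y + dist x z) (dist w z + dist x y) + 2 * δ

/-- roughly geodesic spaces -/
def RoughlyGeodesic (c : ℝ) (N : Type*) [MetricSpace N] : Prop :=
  ∀ x y : N, ∀ t : ℝ, 0 ≤ t → t ≤ dist x y → ∃ m, dist x m ≤ t + c ∧ dist m y ≤ dist x y - t + c

/-- Bounded approximation for free spaces over uniformly discrete coarse Lipschitz retracts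
of coarsely injective spaces; in particular over Gromov hyperbolic ones. -/
theorem result :
    (∀ (M : Type u) (N : Type v) [MetricSpace M] [MetricSpace N] (o : M) (s K L : ℝ),
      Separated s M → 0 ≤ K → 0 ≤ L → CoarselyInjective K N → CoarseLipRetract L M N →
        ∃ c, FreeSpaceHasBAP M o c) ∧
    (∀ (M : Type u) (ι : Type v) [MetricSpace M] (o : M) (s L : ℝ),
      Separated s M → 0 ≤ L → CoarseLipRetract L M (lp (fun _ : ι => ℝ) ⊤) →
        ∃ c, FreeSpaceHasBAP M o c) ∧
    (∀ (M : Type u) [MetricSpace M] (o : M) (s K : ℝ),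
      Separated s M → 0 ≤ K → CoarselyInjective K M → FreeSpaceHasBAP M o (3 + 2 * K / s)) ∧
    (∀ (M : Type u) [MetricSpace M] (o : M) (s δ c : ℝ),
      Separated s M → 0 ≤ δ → 0 ≤ c → Hyperbolic δ M → RoughlyGeodesic c M →
        FreeSpaceHasBAP M o (3 + 2 * (2 * δ + c + 1) / s)) ∧
    (∀ (M : Type u) (N : Type v) [MetricSpace M] [MetricSpace N] (o : M) (s δ c L : ℝ),
      Separated s M → 0 ≤ δ → 0 ≤ c → 0 ≤ L → Hyperbolic δ N → RoughlyGeodesic c N →
        CoarseLipRetract L M N → ∃ c', FreeSpaceHasBAP M o c') := by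
  refine ⟨?_, ?_, ?_, ?_, ?_⟩
  · rintro M N _ _ o s K L ⟨hs, hsep⟩ hK hL hN ⟨i, r, hi, hr, hri⟩
    exact ⟨1 + L * L + (L * (L + 1 + 2 * K) + L * (1 + K) + 3 * L) / s,
      hasBAP_of_maps (by positivity)
      (fun A hA => exists_finite_range_retract hK hL hN hs hsep i r hi hr hri A hA)⟩
  · rintro M ι _ o s L ⟨hs, hsep⟩ hL ⟨i, r, hi, hr, hri⟩
    exact ⟨_, hasBAP_of_maps (by positivity)
      (fun A hA => exists_finite_range_retract le_rfl hL (coarselyInjective_lp ι) hs hsep i r
        hi hr hri A hA)⟩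
  · rintro M _ o s K ⟨hs, hsep⟩ hK hM
    exact hasBAP_of_maps (by positivity)
      (fun A hA => exists_finite_range hK hM hs hsep A hA)
  · rintro M _ o s δ c ⟨hs, hsep⟩ hδ hc hyp hgeo
    have : Nonempty M := ⟨o⟩
    exact hasBAP_of_maps (by positivity)
      (fun A hA => exists_finite_range (by positivity)
        (coarselyInjective_of_hyperbolic hyp hgeo) hs hsep A hA)
  · rintro M N _ _ o s δ c L ⟨hs, hsep⟩ hδ hc hL hyp hgeo ⟨i, r, hi, hr, hri⟩
    have : Nonempty N := ⟨i o⟩
    have hN : CoarselyInjective (2 * δ + c + 1) N := coarselyInjective_of_hyperbolic hyp hgeo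
    exact ⟨_, hasBAP_of_maps (by positivity)
      (fun A hA => exists_finite_range_retract (by positivity) hL hN hs hsep i r
        hi hr hri A hA)⟩

end Vale.Agent.Results.P090.CoarseRetract
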